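import Crest.Agent.X212.Irr71.L2
import Crest.Agent.X212.Lvo97.Main
import Crest.Agent.X212.Flo2.Prt
import Crest.Agent.X212.Pb50.Pt

/-!
# Row 212, LV-IRR (helper71): solutions are irreducible
-/

set_option autoImplicit false
set_option linter.unusedSectionVars false
noncomputable section
open scoped Manifold ContDiff Topology InnerProductSpace ENNReal
open MeasureTheory Set Function Filter

namespace Crest.Agent.X212.Irr71
open An Cyf70 Sw Sw.En3 Sob92 Sw88 Flo2 Lvo97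
open M (Mf)

variable {κ lam ν : Type} [Fintype κ] [Fintype lam] [Fintype ν] [DecidableEq ν]

theorem nb_mono {e : En3 κ lam ν} {C C' : ℝ} (h : e.Nb C) (k : C ≤ C') : e.Nb C' :=
  { h with
    f := fun r => ⟨(h.f r).1.trans k, (h.f r).2.trans k⟩
    ζ := fun y => (h.ζ y).trans k
    vol := h.vol.trans (ENNReal.ofReal_le_ofReal k)
    om := fun v hv => (h.om v hv).trans (mul_le_mul_of_nonneg_right k
      (add_nonneg zero_le_one (Real.sqrt_nonneg _))) }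

theorem rt_hl {X : Mf 4} {nc : ℕ} {b : Bg X.I X.M κ lam ν nc} {ε ε' : Ty κ lam ν} (h : ε = ε')
    (K : Nk ε.en b) (c : Sw.Cfg X.M κ ν) (x : X.M) : (rt h K).hl c x = K.hl c x := by subst h; rfl

variable {𝓔 : Type} [Fintype 𝓔] {ty : 𝓔 → Ty κ lam ν} {Sl : Type} [Fintype Sl] {g : Gc κ lam ν}
  (p : Plc ty Sl g) (l : Lv 𝓔) {nc : ℕ} (P : Pz g.X nc fun i => (g.ty i).en)

theorem lev_p0C (c : Sw.Cfg g.X.M κ ν) (x : g.X.M) : (p.lev l P).p0.C c x = P.p0.C c x :=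
  (Fintype.sum_of_injective p.ι p.inj _ _ (fun j hj => by rw [Lvo97.lev_none p l hj]; rfl) fun i => by
    rw [Lvo97.lev_nk]
    cases P.nk i with
    | none => rfl
    | some K => exact (rt_hl (p.ty i).symm K c x).symm).symm

theorem lev_eC {c : Sw.Cfg g.X.M κ ν} (h : c.Φ = 0) (x : g.X.M) :
    (p.lev l P).bg.eC c x = P.bg.eC c x := by
  have : ∀ b : Bg g.X.I g.X.M κ lam ν nc, b.qd x 0 0 = 0 := fun b => by
    ext s
    simp [Bg.qd]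
  simp only [Bg.eC, h, Pi.zero_apply, this, smul_zero]
  rfl

/-- uniform bounds of the pieces at a level -/
theorem uni_lev (hg : g.OK) (hw : 0 < l.w) (h1 : l.w ≤ 1) (hN : ∀ ε, ∃ C, (l.e ty ε).Nb C) :
    ∃ C, ∀ t ∈ g.dom, Uni (p.lev l (g.P t)) C := by
  choose B hB using hN
  set A := ∑ ε, |B ε| + Fintype.card (𝓔 × Sl)
  have a0 : 0 ≤ ∑ ε, |B ε| := by positivity
  have a1 : ∀ k, g.C k ≤ |g.C k| + A := fun k => (le_abs_self _).trans (le_add_of_nonneg_right (by positivity))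
  refine ⟨fun k => |g.C k| + A, fun t ht => ?_⟩
  obtain ⟨b1, b2⟩ := hg.bd t ht
  refine ⟨⟨Ell97.Tame_mono b1.tame a1, fun x => (b1.ms x).trans (a1 0), fun i x => (b1.dms i x).trans (a1 0),
    fun x => (b1.om x).trans (a1 0)⟩, ?_, fun j _ => nb_mono (hB j.1) ?_, hw, h1,
    lev_thick p l 3 ▸ b2.trans (ENNReal.ofReal_le_ofReal (a1 0))⟩
  · refine (Nat.cast_le.2 ((ncard_le_card _).trans_eq Nat.card_eq_fintype_card)).trans ?_
    linarith [abs_nonneg (g.C 0)]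
  · linarith [abs_nonneg (g.C 0), le_abs_self (B j.1), Finset.single_le_sum (f := fun ε => |B ε|)
      (fun _ _ => abs_nonneg _) (Finset.mem_univ j.1), Nat.cast_nonneg (α := ℝ) (Fintype.card (𝓔 × Sl))]

variable {G : Gr κ lam ν} {mk : Mk κ lam ν}

theorem ev_nb (hT : TowStmt G mk) (h : ∀ ε, (ty ε).1.OK mk) :
    Flo2.Ev ty fun l _ => l.w ≤ 1 ∧ ∀ ε, ∃ C, (l.e ty ε).Nb C :=
  Ev.and ⟨0, fun _ _ => ⟨1, one_pos, fun _ _ h _ => h⟩⟩ (Ev.all fun ε =>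
    let ⟨_, _, k⟩ := hT _ (h ε)
    let ⟨C, k⟩ := (k (ty ε).2).lev
    (Ev.at ε k).mono fun _ _ k => ⟨C, k.1⟩)

/-- **LV-IRR** -/
theorem irr (hA : AprStmt κ lam ν) (hD : DlStmt κ lam ν) (hP : PsyStmt κ lam ν) (hT : TowStmt G mk)
    (hI : IndStmt G mk) : IrrStmt mk := by
  intro g hg hr 𝓔 _ ty Sl _ p hty
  have u : ∀ t, t ∈ g.𝓕.Q := fun t => hg.1.Q ▸ mem_univ t
  by_cases hi : ∃ i s, g.s.Inf i s
  · obtain ⟨i, s, hi⟩ := hi
    refine .of_forall fun l Γ => ⟨1, one_pos, fun W yt τ _ q _ β hβ y _ _ => ?_⟩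
    obtain ⟨K, k1, k2⟩ := (Pb50.inf_iff hg.1.fam (u y.1.1) i s).2 hi
    have k3 := (Γ.rs _).gd _ (hβ i s hi)
    have k4 := (lk_inf p l K s).2 k2
    exact irr_asy (lk p l K) k4 k3.crit.1 k3.irr (y.2.2.2 (p.ι i) s _ (lk_mem p l k1) k4)
  simp only [not_exists] at hi
  have h1 : g.pin = none := Option.eq_none_iff_forall_ne_some.2 fun i e => hi i _ ((hg.1.inn i).2 e)
  have h3 : g.p3 = none := Option.eq_none_iff_forall_ne_some.2 fun i e => hi i _ ((hg.1.out i).2 (.inr e))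
  obtain ⟨δ, δ0, hδ⟩ := hr h1
  obtain ⟨B, hB⟩ := hI.k2 g.toBs
  refine (ev_nb hT hty).mono fun l Γ ⟨w1, hN⟩ => ?_
  obtain ⟨C, hC⟩ := uni_lev p l hg.1 Γ.w0 w1 hN
  obtain ⟨ε, ε0, C', H⟩ := hA C
  obtain ⟨η, η0, _, H⟩ := H 𝓔 (l.e ty) (𝓔 × Sl) Prod.fst (fun j => ⟨_, Γ.ok j.1⟩) l.w
  obtain ⟨η', η1, H'⟩ := l2_small hD hP (l.e ty) (Prod.fst : 𝓔 × Sl → 𝓔) (fun j => ⟨_, Γ.ok j.1⟩) (C 0)
    ((C' + B * (1 + max 0 (-(G.dg g : ℝ)))) / ε) δ0
  refine ⟨min η η', lt_min η0 η1, fun W yt τ hτ q hq β _ y hy hs => by_contra fun k => ?_⟩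
  have k0 : y.1.2.Φ = 0 := funext fun x => not_not.1 fun h => k ⟨x, h⟩
  have ok := (lev κ lam ν g hg.1 𝓔 ty Sl p l W yt τ (fun ε => (Γ.ok ε).ok) Γ.w0 hτ).ok y.1.1 trivial
  have ni : ∀ i s, ¬(g.P y.1.1).Inf i s := fun i s h => hi i s (hg.1.inf h)
  have ni' : ∀ j s, ¬(p.lev l (g.P y.1.1)).Inf j s := fun j s h =>
    let ⟨i, _, h⟩ := inf_lev p l h; ni i s h
  have sm : ∀ {η₁}, min η η' ≤ η₁ → ((p.fam l yt τ).P y.1.1).Small 0 η₁ q := fun h =>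
    let ⟨s, a, b⟩ := hq y.1.1
    ⟨s, a.trans h, fun w hw => ⟨(b w hw).1, fun v hv => (b w hw).2.1 v (by omega), (b w hw).2.2.1,
      (b w hw).2.2.2.1, fun i T hT j hj r v hv => (b w hw).2.2.2.2 i T hT j (by omega) r v (by omega)⟩⟩
  obtain ⟨-, -, e1, e2⟩ := H W yt _ _ _ ok (hC _ hy) rfl q (sm (min_le_left _ _)) β y.1.2
    (fun j s h => (ni' j s h).elim) y.2.2 hs.eq
  have e3 := hB g rfl hg (by simp [h1]) (by simp [h3]) _ hy
  have e4 : (p.lev l (g.P y.1.1)).lev β = 0 := by simp [Pz.lev, ni']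
  have e5 : (((p.fam l yt τ).P y.1.1).ean y.1.2).toReal ≤ (C' + B * (1 + max 0 (-(G.dg g : ℝ)))) / ε := by
    rw [le_div_iff₀' ε0]
    erw [e4] at e2
    have : (g.P y.1.1).bg.k2 = ((p.fam l yt τ).P y.1.1).bg.k2 := rfl
    linarith
  refine (H' W yt _ _ _ ok (hC _ hy).vol q (sm (min_le_right _ _)) y.1.2 hs.toAdm k0 hs.eq
    ((ENNReal.le_ofReal_iff_toReal_le e1 (ENNReal.toReal_nonneg.trans e5)).2 e5)).not_ge
    ((hδ _ hy (fun _ _ => ⟨0, 0⟩) y.1.2 (fun i s h => (ni i s h).elim) (fun _ _ _ => rfl)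
      ⟨adm_re.1 hs.toAdm, fun i s K a b => (ni i s ⟨K, a, b⟩).elim⟩ k0).trans_eq
        (lintegral_congr fun x => ?_))
  exact congrArg (‖·‖ₑ ^ 2) (congrArg₂ (· - ·) (lev_eC p l _ k0 x) (lev_p0C p l _ _ x)).symm

end Crest.Agent.X212.Irr71
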