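import Crest.Agent.X212.Sw88.Apr

/-!
# Row 212, LV-IRR (helper71): irreducible limits; the terms are small in `L²`
-/

set_option autoImplicit false
set_option linter.unusedSectionVars false
noncomputable section
open scoped Manifold ContDiff Topology InnerProductSpace ENNReal
open MeasureTheory Set Function Filter

namespace Crest.Agent.X212.Irr71
open An Cyf70 Sw Sw.En3 Sob92 Sw88
open M (Mf)

variable {κ lam ν : Type} [Fintype κ] [Fintype lam] [Fintype ν] [DecidableEq ν]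
  {X : Mf 4} {nc : ℕ}

section nk
variable {e : En3 κ lam ν} {b : Bg X.I X.M κ lam ν nc} (K : Nk e b) {s : Bool}

theorem vol_far (hs : K.Inf s) (T : ℝ) : volume (K.far s T) = ⊤ := by
  cases s
  · refine top_le_iff.1 ((Real.volume_Iio (a := min (-T) (K.q.getD 0))).ge.trans
      (measure_mono fun t ht => ⟨⟨fun a ha => ?_, fun a ha => ?_⟩, ?_⟩))
    · simp [show K.p = none from hs] at ha
    · simpa [Option.mem_def.1 ha] using (lt_min_iff.1 (mem_Iio.1 ht)).2
    · simpa [M.pm, lt_neg] using (lt_min_iff.1 (mem_Iio.1 ht)).1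
  · refine top_le_iff.1 ((Real.volume_Ioi (a := max T (K.p.getD 0))).ge.trans
      (measure_mono fun t ht => ⟨⟨fun a ha => ?_, fun a ha => ?_⟩, ?_⟩))
    · simpa [Option.mem_def.1 ha] using (max_lt_iff.1 (mem_Ioi.1 ht)).2
    · simp [show K.q = none from hs] at ha
    · simpa [M.pm] using (max_lt_iff.1 (mem_Ioi.1 ht)).1

/-- a configuration with an irreducible limit is irreducible -/
theorem irr_asy {v : e.YC} {c : Sw.Cfg X.M κ ν} (hs : K.Inf s) (hv : e.cyl.Adm (fz v))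
    (hi : ∃ y, v.Φ y ≠ 0) (h : K.Asy s v c) : ∃ x, c.Φ x ≠ 0 := by
  by_contra! k
  obtain ⟨T, -, h⟩ := h
  obtain ⟨y, hy⟩ := hi
  have cv : Continuous fun y => ‖‖v.Φ y‖ ^ 2‖ₑ :=
    ((hv.sΦ.continuous.comp (Continuous.prodMk_left 0)).norm.pow 2).enorm
  have := openPos e.D.F.toPre
  have h1 : ∫⁻ x in univ ×ˢ K.far s T, ‖‖v.Φ x.1‖ ^ 2‖ₑ * 1 ∂e.D.F.μ.prod volume < ⊤ := by
    have : ∫⁻ x in univ ×ˢ K.far s T, ‖‖c.Φ (K.ψ x) - v.Φ x.1‖ ^ 2‖ₑ ∂e.D.F.μ.prod volume < ⊤ :=
      (h []).2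
    simpa [k] using this
  rw [← Measure.prod_restrict, Measure.restrict_univ, lintegral_prod_mul (f := fun y => ‖‖v.Φ y‖ ^ 2‖ₑ)
    (g := fun _ => 1) cv.measurable.aemeasurable aemeasurable_const, lintegral_one,
    Measure.restrict_apply_univ, vol_far K hs, ENNReal.mul_top] at h1
  · exact h1.false
  · rw [Ne, lintegral_eq_zero_iff cv.measurable, cv.ae_eq_iff_eq _ continuous_zero]
    exact fun e => hy (by simpa using congrFun e y)

end nk

/-- along reducible solutions of bounded energy the terms are small in `L²` -/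
theorem l2_small (hD : DlStmt κ lam ν) (hP : PsyStmt κ lam ν) {𝓔 : Type} (e : 𝓔 → En3 κ lam ν)
    {N : Type} [Fintype N] (ty : N → 𝓔) (hg : ∀ i, ∃ g : (e (ty i)).Gen, g.OK) (V E : ℝ) {δ : ℝ}
    (δ0 : 0 < δ) : ∃ η > 0, ∀ W yt (X : Mf 4) (nc : ℕ) (P : Pc ⟨𝓔, e, W, yt⟩ X nc ty), P.OK →
      P.bg.F.μ (P.thick 3) ≤ ENNReal.ofReal V → ∀ q, P.Small 0 η q → ∀ c, P.bg.Adm c → c.Φ = 0 →
      P.bg.EqOn (P.pt q) c univ → P.ean c ≤ ENNReal.ofReal E →
      ∫⁻ x, ‖P.bg.eC c x - P.p0.C c x‖ₑ ^ 2 ∂P.bg.F.μ < ENNReal.ofReal δ := by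
  set n : ℝ := (Fintype.card N : ℝ)
  have n0 : 0 ≤ n := Nat.cast_nonneg _
  obtain ⟨ε, ε0, h0⟩ : ∃ ε > (0 : ℝ), n * (2 * (ε * |E|)) < δ / 2 :=
    ((eventually_mem_nhdsWithin (a := (0 : ℝ)) (s := Ioi 0)).and (Eventually.filter_mono
      nhdsWithin_le_nhds ((show ContinuousAt (fun ε : ℝ => n * (2 * (ε * |E|))) 0 by
        fun_prop).eventually_lt_const (by simpa)))).exists
  choose g hg using hg
  choose ρ ρ0 hρ using fun i => tau_abs hD hP (hg i) 1 ε0
  obtain ⟨η, η0, h1, h2, h3⟩ : ∃ η > (0 : ℝ), η * (1 + n) ≤ 1 ∧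
      (η * (1 + n)) ^ 2 * |V| + n * (2 * η ^ 2) < δ / 2 ∧ ∀ i, η ≤ ρ i :=
    ((eventually_mem_nhdsWithin (a := (0 : ℝ)) (s := Ioi 0)).and (Eventually.filter_mono
      nhdsWithin_le_nhds (((show ContinuousAt (fun η : ℝ => η * (1 + n)) 0 by
        fun_prop).eventually_le_const (by simp)).and (((show ContinuousAt
          (fun η : ℝ => (η * (1 + n)) ^ 2 * |V| + n * (2 * η ^ 2)) 0 by fun_prop).eventually_lt_const
            (by simpa)).and (eventually_all.2 fun i => eventually_le_nhds (ρ0 i)))))).exists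
  refine ⟨η, η0, fun W yt X nc P k hV q hq c hc h0' hs hE => ?_⟩
  have e1 : ∀ x, P.bg.eC c x - P.p0.C c x = q.sum fun w r => r • P.tm w c x := fun x => by
    rw [(hs x trivial).2]
    exact add_sub_cancel_left _ _
  have b1 : ∀ x, ‖P.bg.eC c x - P.p0.C c x‖ ≤ η * (1 + n) := fun x => e1 x ▸ norm_terms P hq c x
  have nk : ∀ i, ∫⁻ x in ⋃ K ∈ P.nk i, K.ψ '' univ ×ˢ K.deep 3,
      ‖P.bg.eC c x - P.p0.C c x‖ₑ ^ 2 ∂P.bg.F.μ ≤ ENNReal.ofReal (2 * η ^ 2 + 2 * (ε * |E|)) := fun i => by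
    cases hK : P.nk i with
    | none => simp
    | some K =>
    simp only [Option.mem_def, Option.some.injEq, iUnion_iUnion_eq_right]
    have o3 : IsOpen (K.deep 3) := Nd18.isOpen_Jv
    have j2 : K.deep 2 ⊆ K.J := fun _ => Pb50.deep_J K two_pos
    have d3 : K.deep 3 ⊆ K.deep 2 := fun t ht => deep_near K ht (by norm_num)
    have k1 := hρ i W (fun w => yt w (ty i)) q (K.pb c) _ _
      (Sep15.S.sml_mono (sml_of hq i) le_rfl (h3 i))
      (Sep15.S.admOn_mono (Pb50.admOn_pb K hc) (prod_mono_right j2))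
      (fun x hx => ⟨by rw [← Pb50.eD_ψ K (K.mem_src.2 (j2 hx.2)), (hs _ trivial).1]
                       exact p0D_ψ k.toOK hK c hx.2,
        by rw [eC_ψ' k.toOK hK c hx.2]; exact (b1 _).trans h1⟩)
      (fun x _ => by simp [Cfg.pb, h0']) _ o3.measurableSet fun t ht => by
        obtain ⟨s, h, k⟩ := Metric.mem_thickening_iff.1 ht
        exact deep_near K h (by rw [← Real.dist_eq]; linarith)
    have k2 : en (K.pb c) (K.deep 2) ≤ ENNReal.ofReal |E| := by
      refine le_trans (le_trans (le_trans ?_ (Finset.single_le_sum (f := fun i => (P.nk i).elim 0 fun K =>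
        en (K.pb c) (K.deep 2)) (fun _ _ => zero_le) (Finset.mem_univ i))) le_add_self)
        (hE.trans (ENNReal.ofReal_le_ofReal (le_abs_self E)))
      rw [hK]
      rfl
    have m : Measurable fun x => 2 * ‖q.sum fun w r => r • P.fo w x‖ₑ ^ 2 :=
      ((continuous_finsetSum _ fun w _ =>
        (k.sf w).continuous.const_smul (q w)).measurable.enorm.pow_const 2).const_mul 2
    calc _ ≤ ∫⁻ x in K.ψ '' univ ×ˢ K.deep 3, 2 * ‖q.sum fun w r => r • P.fo w x‖ₑ ^ 2 +
          2 * ‖P.bg.eC c x - P.p0.C c x - q.sum fun w r => r • P.fo w x‖ₑ ^ 2 ∂P.bg.F.μ :=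
          lintegral_mono fun x => le_of_eq_of_le (by rw [add_sub_cancel]) (enorm_add_sq _ _)
      _ ≤ _ := by
          rw [lintegral_add_left m, lintegral_const_mul' _ _ (by simp),
            lintegral_const_mul' _ _ (by simp), ENNReal.ofReal_add (by positivity) (by positivity),
            ENNReal.ofReal_mul zero_le_two, ENNReal.ofReal_mul zero_le_two, ENNReal.ofReal_ofNat,
            ENNReal.ofReal_mul ε0.le]
          refine add_le_add (mul_le_mul_right ((setLIntegral_le_lintegral _ _).trans (fo_l2 k hq)) _)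
            (mul_le_mul_right ((lint_img K o3 (d3.trans j2) _).trans ((setLIntegral_mono'
              (isOpen_univ.prod o3).measurableSet fun x hx => le_of_eq ?_).trans
                (k1.trans (mul_le_mul_right k2 _)))) _)
          rw [e1, terms_ψ k.toOK q c hK (d3 hx.2), add_sub_cancel_left]
  have th : ∫⁻ x in P.thick 3, ‖P.bg.eC c x - P.p0.C c x‖ₑ ^ 2 ∂P.bg.F.μ ≤
      ENNReal.ofReal ((η * (1 + n)) ^ 2 * |V|) := by
    refine (lintegral_mono (g := fun _ => ENNReal.ofReal ((η * (1 + n)) ^ 2)) fun x => ?_).trans ?_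
    · rw [← ofReal_norm, ← ENNReal.ofReal_pow (norm_nonneg _)]
      exact ENNReal.ofReal_le_ofReal (pow_le_pow_left₀ (norm_nonneg _) (b1 x) 2)
    · rw [setLIntegral_const, ENNReal.ofReal_mul (by positivity)]
      exact mul_le_mul_right (hV.trans (ENNReal.ofReal_le_ofReal (le_abs_self V))) _
  have cov : univ ⊆ P.thick 3 ∪ ⋃ i, ⋃ K ∈ P.nk i, K.ψ '' univ ×ˢ K.deep 3 := fun x _ => by
    by_contra h
    simp only [mem_union, mem_iUnion, not_or, not_exists] at h
    exact h.1 h.2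
  rw [← setLIntegral_univ]
  refine ((lintegral_mono_set cov).trans ((lintegral_union_le _ _ _).trans (add_le_add th
    ((lintegral_iUnion_le _ _).trans ((tsum_fintype _).trans_le
      (Finset.sum_le_card_nsmul _ _ _ fun i _ => nk i)))))).trans_lt ?_
  rw [Finset.card_univ, nsmul_eq_mul, ← ENNReal.ofReal_natCast, ← ENNReal.ofReal_mul n0,
    ← ENNReal.ofReal_add (by positivity) (by positivity)]
  exact (ENNReal.ofReal_lt_ofReal_iff δ0).2 (by linarith)

end Crest.Agent.X212.Irr71
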